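import Vale.Agent.P106.U.H565.RunF
import Vale.Agent.P106.U.H480.RunSel
import Vale.Agent.P106.U.H786.GroV

/-!
# P106 / U / H315 : growth of the directions for the concrete data (row [GRO] of helper565's list; helper315)

* `fn_cov` : the covector of the label is transversal (`FWok`).
* `grow_c` : helper786's `grow_v` with the constants of `U/S5/Props`: for every `b ≤ q`,
  `(lam - 8 k) b log 2 ≤ H(v to b digits | W, t_h) + 3 d1 h log 2 + Kg`; `Kg` depends on `σ`, `d1`, `g`.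
* `gro` : the growth hypothesis of `sel6` / `run_sel` for a `C0`, literal (`δ1` any number with `m * nBl δ1 h m ≤ q`);
  `nBl_q` : this holds for `δ1 ≤ I.δ1` if `I.Good`.
-/

set_option autoImplicit false

namespace Vale.Agent.P106.U.H315

open Finset Vale.Agent.P127 Vale.Agent.P127.Stk Vale.Agent.P127.U Vale.Agent.P106.W Vale.Agent.P106.K
open Vale.Agent.P127.U.CellD (q2 rd)
open Vale.Agent.P106.U Vale.Agent.P106.U.H565 Vale.Agent.P106.U.H786 Vale.Agent.P106.U.H786.Adp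

/-- the covector of the label is transversal -/
theorem fn_cov {θ : ℝ} {h q Rm : ℕ} {W : Cbx} {l : Ry} {t : ℝ} (H : H465.FWn.FWok θ h q Rm W l t) :
    1 ≤ (4 / 3 : ℝ) * P122.C2.fn θ ((fuW h W t).cov l) := by
  have h1 := H.c1
  have h2 : (FW θ h W t).cN (toR θ l) (rd h t) = P122.C2.fn θ ((fuW h W t).cov l) := FW_cN θ h W t l
  rw [h2] at h1
  linarith

open S5 in
/-- growth of the directions -/
theorem grow_c {σ : Cst} (hσ : σ.Ok) {d1 : ℝ} (hd1 : 0 < d1) {g : Gv} (hg : g.Ok σ d1) :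
    ∃ Kg : ℝ, 0 ≤ Kg ∧ ∀ (Ω : Type) [Fintype Ω] (P : Law Ω) (l : Ω → Ry) (t : Ω → ℝ) (L h q Rm : ℕ) (W : Ω → Cbx) (θ : ℝ),
      1 ≤ h → NEx 100 σ.lam σ.N g.k g.β d1 P l t (fun _ => ()) L h q W →
      (∀ ω, 0 < P.w ω → H465.FWn.FWok θ h q Rm (W ω) (l ω) (t ω)) → ∀ b : ℕ, b ≤ q →
      (σ.lam - 8 * g.k) * b * Real.log 2 ≤
        Stk.hc P (fun ω => fl1 b (toR θ (l ω)).v) (fun ω => (W ω, fl1 h (t ω))) + (3 * d1 * h * Real.log 2 + Kg) := by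
  obtain ⟨K, hK0, hK⟩ := grow_v σ.lam σ.N g.k (8 * g.k) g.β g.b' hσ.bs.lam0.le hσ.bs.lam1.le hg.k0.le
    (by linarith [hg.k0]) (by linarith [hσ.bs.N2]) hg.fix 100 (by norm_num) (4 / 3) (by norm_num) d1 hd1
  refine ⟨K, hK0, ?_⟩
  intro Ω _ P l t L h q Rm W θ hh hne hfw b hb
  have hpr : ∀ ω, P.pr (fun ω : Ω => ω) ω = P.w ω := by
    intro ω
    classical
    unfold Law.pr
    rw [Finset.sum_filter, Finset.sum_ite_eq' Finset.univ ω P.w, if_pos (Finset.mem_univ ω)]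
  have h1 := hK d1 θ Ω Unit P l t (fun _ => ()) L h q W hh hne (fun ω hω => fn_cov (hfw ω hω)) Ω P (fun ω => ω) hpr
    Unit (fun _ => ()) b hb
  have e1 : Stk.hc P (fun _ : Ω => ()) (fun ω => (W ω, fl1 h (t ω), ())) = 0 :=
    hc_zero P fun _ _ _ _ _ => rfl
  have e2 : Stk.hc P (fun _ : Ω => ()) (fun ω => (l ω, ())) = 0 := hc_zero P fun _ _ _ _ _ => rfl
  have e3 : Stk.hc P (fun ω => fl1 b (toR θ (l ω)).v) (fun ω => (W ω, fl1 h (t ω), (), ())) =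
      Stk.hc P (fun ω => fl1 b (toR θ (l ω)).v) (fun ω => (W ω, fl1 h (t ω))) := by
    refine hc_congr P (fun ω ω' _ _ e => (Prod.mk.inj e).1) (fun ω ω' _ _ e => (Prod.mk.inj e).1) ?_ ?_
    · intro ω ω' _ _ e
      simp only [Prod.mk.injEq] at e ⊢
      exact ⟨e.1, e.2, trivial⟩
    · intro ω ω' _ _ e
      simp only [Prod.mk.injEq] at e ⊢
      exact ⟨e.1, e.2.1⟩
  rw [e1, e2, e3] at h1
  have h2 : (g.b' + d1 - g.β + d1) * h * Real.log 2 ≤ 3 * d1 * h * Real.log 2 := by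
    have hl : 0 ≤ Real.log 2 := Real.log_nonneg (by norm_num)
    have := hg.bε
    gcongr
    linarith
  linarith

/-- the number of the blocks is at most the number of the digits of the label -/
theorem nBl_q {I : H523.Nums.Inp} {K1 : ℝ} {N0 : ℕ} (g : I.Good K1 N0) {δ : ℝ} (hδ : δ ≤ I.δ1) :
    I.m * nBl δ I.h I.m ≤ I.q := by
  have h1 : nBl δ I.h I.m ≤ I.B1b := by
    unfold nBl H523.Nums.Inp.B1b
    refine Nat.floor_le_floor ?_
    gcongr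
  have h2 : I.m * I.B1b ≤ I.num.QF := le_trans (Nat.le_add_left _ _) g.KF
  exact (Nat.mul_le_mul_left _ h1).trans (h2.trans g.QFq)

open S5 in
/-- **the growth hypothesis** of `sel6` and of `run_sel` -/
theorem gro {σ : Cst} (hσ : σ.Ok) {d1 : ℝ} (hd1 : 0 < d1) {g : Gv} (hg : g.Ok σ d1) :
    ∃ Kg : ℝ, 0 ≤ Kg ∧ ∀ (Ω : Type) [Fintype Ω] (c : C0 Ω) (Rm : ℕ), c.St Rm → 1 ≤ c.I.h →
      NEx 100 σ.lam σ.N g.k g.β d1 c.P c.l c.t (fun _ => ()) c.L c.I.h c.I.q c.W →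
      ∀ δ : ℝ, c.I.m * nBl δ c.I.h c.I.m ≤ c.I.q →
      (σ.lam - 8 * g.k) * (c.I.m * nBl δ c.I.h c.I.m : ℕ) * Real.log 2 ≤
        Stk.hc c.P (fun ω => fl1 (c.I.m * nBl δ c.I.h c.I.m) (c.v ω)) c.Wd + (3 * d1 * c.I.h * Real.log 2 + Kg) := by
  obtain ⟨Kg, hK0, hK⟩ := grow_c hσ hd1 hg
  refine ⟨Kg, hK0, fun Ω _ c Rm hst hh hne δ hδ => ?_⟩
  exact hK Ω c.P c.l c.t c.L c.I.h c.I.q Rm c.W c.θ hh hne hst.fw _ hδ

/-- bound of the directions -/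
theorem v_le {Ω : Type} [Fintype Ω] {c : C0 Ω} {Rm : ℕ} (hst : c.St Rm) {ω : Ω} (hω : 0 < c.P.w ω) : |c.v ω| ≤ 2 :=
  (hst.fw ω hω).v2

end Vale.Agent.P106.U.H315
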