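import Vale.Agent.P106.U.H315.W1C
import Vale.Agent.P106.U.H824.LinkR

/-!
# P106 / U / H315 : numbers of word 1 in the hypotheses of `run_sel` (row [KR]; helper315)

* `rR_le` : the number of revealed line blocks at a level is at most the number of steps.
* `rR_KR` : `m * rR n (w1 ω) a ≤ KR K1 * h`, `KR K1 = 2 + 2 K1`.
* `hRI`, `hM1`, `hlM1`, `hmA` : the four hypotheses of `run_sel` on word 1, literal, for `I.Good K1 N0`.
-/

set_option autoImplicit false

namespace Vale.Agent.P106.U.H315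

open Finset Vale.Agent.P127 Vale.Agent.P127.Stk Vale.Agent.P127.U Vale.Agent.P106.W
open Vale.Agent.P127.U.JSB
open Vale.Agent.P106.U Vale.Agent.P106.U.H449 Vale.Agent.P106.U.H565 Vale.Agent.P106.U.LinkR Vale.Agent.P106.U.LinkW2

/-- the number of steps of a kind is at most the length -/
theorem cw_length {K : ℕ} (k : Option (Fin K)) (w : List (Lt K)) : cw k w ≤ w.length :=
  List.countP_le_length

/-- the number of steps of a kind among the first `i` -/
theorem lv_le_n {K : ℕ} {n : ℕ} {E : List (Lt K)} (hE : E.length ≤ n) (k : Option (Fin K)) {i : ℕ} (hi : i ≤ n) :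
    lv n E k i ≤ i := by
  unfold lv
  refine (cw_length k _).trans ?_
  rw [List.length_drop]
  omega

theorem rR_le {n : ℕ} {E : List (Lt 2)} (hE : E.length ≤ n) (a : ℕ) : rR n E a ≤ n :=
  (lv_le_n hE (some 1) (ia_le n E a)).trans (ia_le n E a)

theorem wd_len {Ω : Type} [Fintype Ω] {K : ℕ} {δ γ ζ₁ ζ₂ : Type} (e : Rl Ω K δ γ ζ₁ ζ₂) (P : Law Ω) (n : ℕ) (ω : Ω) :
    (e.wd P n ω).length = n := by
  unfold Rl.wd
  rw [List.length_map, Rl.T_length]

/-- constant of the number of revealed blocks -/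
noncomputable def KR (K1 : ℝ) : ℝ := 2 + 2 * K1

/-- **number of revealed blocks**, for every value of the word -/
theorem rR_KR' {I : H523.Nums.Inp} {K1 : ℝ} {N0 : ℕ} (g : I.Good K1 N0) {E : List (Lt 2)} (hE : E.length ≤ I.pm.n) (a : ℕ) :
    (I.m : ℝ) * rR I.pm.n E a ≤ KR K1 * I.h := by
  have hm : (0 : ℝ) < I.m := by exact_mod_cast g.m1
  have h1 : (rR I.pm.n E a : ℝ) ≤ I.pm.n := by exact_mod_cast rR_le hE a
  have h2 : (rR I.pm.n E a : ℝ) ≤ (2 + 2 * K1) * (I.h / I.m) := h1.trans g.n1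
  calc (I.m : ℝ) * rR I.pm.n E a ≤ I.m * ((2 + 2 * K1) * (I.h / I.m)) := mul_le_mul_of_nonneg_left h2 hm.le
    _ = KR K1 * I.h := by unfold KR; field_simp

/-- the constants are nonnegative -/
theorem KR_nn {K1 : ℝ} (h : 0 ≤ K1) : 0 ≤ KR K1 := by unfold KR; linarith

theorem cW1_pos {K1 : ℝ} (h : 0 ≤ K1) : 0 < cW1 K1 := by
  unfold cW1
  have : 0 < Real.log 75 := Real.log_pos (by norm_num)
  have : 0 < 2 + 2 * K1 := by linarith
  positivity

section run

variable {Ω : Type} [Fintype Ω] (c : C0 Ω) {K1 : ℝ} {N0 : ℕ} (g : c.I.Good K1 N0)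

include g

/-- **number of revealed blocks** at every level -/
theorem rR_KR (ω : Ω) (a : ℕ) : (c.I.m : ℝ) * rR c.I.pm.n (c.w1 ω) a ≤ KR K1 * c.I.h :=
  rR_KR' g (wd_len _ _ _ _).le a

/-- hypothesis `hRI` of `run_sel` with `e = c.rule`, `P = c.P`, `n = c.I.pm.n`, `A = c.I.ha` -/
theorem hRI : ∀ ω, 0 < c.P.w ω → (c.I.m : ℝ) * rR c.I.pm.n (c.rule.wd c.P c.I.pm.n ω) c.I.ha ≤ KR K1 * c.I.h :=
  fun ω _ => rR_KR c g ω _

omit g in
/-- hypothesis on the number of values -/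
theorem hM1 : (img (c.rule.wd c.P c.I.pm.n)).card ≤ M1 c.I := w1_card c

/-- hypothesis on the price -/
theorem hlM1 : Real.log (M1 c.I) ≤ cW1 K1 * c.I.h / c.I.m := by
  rw [mul_div_assoc]
  exact M1_log c.I g

/-- hypothesis on the level -/
theorem hmA : c.I.m * c.I.ha ≤ c.I.h := g.hah

end run

end Vale.Agent.P106.U.H315
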