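import Vale.Agent.P106.U.MIC.Rows

/-!
# P106 / U / H315 : `PMic` from the word and one scale (helper315)

* `exists_le`, `exists_ge`, `exists_geN` : finite minimum and maximum.
* `WordOk.mono1`, `ScaleOk.mono1` : monotone in the exceptional part, in the constant of the price.
* **`pMic_of`** : `PWord → PScale → PMic`.
-/

set_option autoImplicit false

namespace Vale.Agent.P106.U.H315

open Finset Vale.Agent.P127 Vale.Agent.P127.Stk Vale.Agent.P127.U Vale.Agent.P106.W Vale.Agent.P106.K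
open Vale.Agent.P106.U.S3 (Run)
open Vale.Agent.P106.U.S5
open Vale.Agent.P106.U.MIC
open Vale.Agent.P106.U.H118 (Sdat CS full)

/-- finite minimum -/
theorem exists_le (S : Finset ℕ) (f : ℕ → ℝ) (hf : ∀ x ∈ S, 0 < f x) : ∃ y : ℝ, 0 < y ∧ ∀ x ∈ S, y ≤ f x := by
  classical
  induction S using Finset.induction_on with
  | empty => exact ⟨1, one_pos, fun x hx => absurd hx (Finset.notMem_empty x)⟩
  | insert a S ha ih =>
    obtain ⟨y, hy, h⟩ := ih fun x hx => hf x (Finset.mem_insert_of_mem hx)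
    refine ⟨min y (f a), lt_min hy (hf a (Finset.mem_insert_self _ _)), fun x hx => ?_⟩
    rcases Finset.mem_insert.1 hx with rfl | hx
    · exact min_le_right _ _
    · exact (min_le_left _ _).trans (h x hx)

/-- finite maximum -/
theorem exists_ge (S : Finset ℕ) (f : ℕ → ℝ) : ∃ y : ℝ, 0 ≤ y ∧ ∀ x ∈ S, f x ≤ y := by
  classical
  induction S using Finset.induction_on with
  | empty => exact ⟨0, le_refl _, fun x hx => absurd hx (Finset.notMem_empty x)⟩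
  | insert a S ha ih =>
    obtain ⟨y, hy, h⟩ := ih
    refine ⟨max y (f a), hy.trans (le_max_left _ _), fun x hx => ?_⟩
    rcases Finset.mem_insert.1 hx with rfl | hx
    · exact le_max_right _ _
    · exact (h x hx).trans (le_max_left _ _)

/-- finite maximum -/
theorem exists_geN (S : Finset ℕ) (f : ℕ → ℕ) : ∃ y : ℕ, ∀ x ∈ S, f x ≤ y :=
  ⟨S.sup f, fun _ hx => Finset.le_sup hx⟩

theorem WordOk.mono1 {K e1 e1' h mm : ℝ} {J0 n : ℕ} {gd : ℕ → Prop} {a r : ℕ → ℕ} {E : Finset ℕ}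
    (H : WordOk K e1 h mm J0 n gd a r E) (he : e1 * h ≤ e1' * h) : WordOk K e1' h mm J0 n gd a r E :=
  { H with cE := H.cE.trans he }

theorem ScaleOk.mono1 {M0 M1 L1 L2 KK : ℕ} {CJ CH cw c1 c1' δh e3 eps h mm : ℝ} {n : ℕ} {gd : ℕ → Prop} {a r : ℕ → ℕ}
    {psi err q u : ℕ → ℝ} {T : Finset ℕ} {cj ch δ : ℝ}
    (H : ScaleOk M0 M1 L1 L2 KK CJ CH cw c1 δh e3 eps h mm n gd a r psi err q u T cj ch δ) (hc : c1 ≤ c1') :
    ScaleOk M0 M1 L1 L2 KK CJ CH cw c1' δh e3 eps h mm n gd a r psi err q u T cj ch δ :=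
  { H with
    light := fun i k i1 h1 h2 h3 h4 h5 h6 h7 => by
      have h8 := H.light i k i1 h1 h2 h3 h4 h5 h6 h7
      have h9 : (0 : ℝ) ≤ (k : ℝ) - i := by
        have : (i : ℝ) ≤ k := by exact_mod_cast h1
        linarith
      have h10 := mul_le_mul_of_nonneg_right hc h9
      linarith
    triv := fun i k h1 h2 => by
      have h8 := H.triv i k h1 h2
      linarith }

/-- **`PMic` from the word and one scale** -/
theorem pMic_of (hW : PWord) (hS : PScale) : PMic := by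
  classical
  obtain ⟨cw, CJ, CH, hcw, hCJ, hCH, HS⟩ := hS
  refine ⟨cw, CJ, CH, hcw, hCJ, hCH, ?_⟩
  intro b hb η hη p M δh e1 e3 hp hM hMl hδh he1 he3
  obtain ⟨S, hS⟩ : ∃ S : Finset ℕ, S = (range p).image M := ⟨_, rfl⟩
  have hSl : ∀ x ∈ S, 768 * (2 * b.K1 + 4) / η ≤ (x : ℝ) := by
    intro x hx
    rw [hS] at hx
    obtain ⟨s, _, rfl⟩ := Finset.mem_image.1 hx
    exact hMl s
  have hMS : ∀ s < p, M s ∈ S := fun s hs => hS ▸ Finset.mem_image_of_mem M (Finset.mem_range.2 hs)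
  -- θ
  obtain ⟨θw, hθw, HW⟩ := hW b hb η hη
  have HS1 := fun x (hx : x ∈ S) => HS b hb η hη x δh e3 (hSl x hx) hδh he3
  choose! θs hθs HS1 using HS1
  obtain ⟨θm, hθm, hθm'⟩ := exists_le S θs hθs
  refine ⟨min θw θm, lt_min hθw hθm, fun θ hθ hθ' => ?_⟩
  have hθ1 : θ ≤ θw := hθ'.trans (min_le_left _ _)
  have hθ2 : ∀ x ∈ S, θ ≤ θs x := fun x hx => (hθ'.trans (min_le_right _ _)).trans (hθm' x hx)
  -- δ
  obtain ⟨δw, hδw, HW⟩ := HW θ hθ hθ1
  have HS2 := fun x (hx : x ∈ S) => HS1 x hx θ hθ (hθ2 x hx)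
  choose! δs hδs HS2 using HS2
  obtain ⟨δm, hδm, hδm'⟩ := exists_le S δs hδs
  refine ⟨min δw δm, lt_min hδw hδm, fun δ1 hδ1 hδ1' σ hσ hσo => ?_⟩
  have hδ2 : δ1 ≤ δw := hδ1'.trans (min_le_left _ _)
  have hδ3 : ∀ x ∈ S, δ1 ≤ δs x := fun x hx => (hδ1'.trans (min_le_right _ _)).trans (hδm' x hx)
  -- ε
  obtain ⟨εw, hεw, HW⟩ := HW δ1 hδ1 hδ2 σ hσ hσo
  have HS3 := fun x (hx : x ∈ S) => HS2 x hx δ1 hδ1 (hδ3 x hx) σ hσ hσo
  choose! εs hεs HS3 using HS3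
  obtain ⟨εm, hεm, hεm'⟩ := exists_le S εs hεs
  refine ⟨min (min εw εm) (e1 / 20), lt_min (lt_min hεw hεm) (by positivity), fun ε hε hε' ρ hρ => ?_⟩
  have hε1 : ε ≤ εw := (hε'.trans (min_le_left _ _)).trans (min_le_left _ _)
  have hε2 : ∀ x ∈ S, ε ≤ εs x :=
    fun x hx => ((hε'.trans (min_le_left _ _)).trans (min_le_right _ _)).trans (hεm' x hx)
  have hε3 : 20 * ε ≤ e1 := by
    have := hε'.trans (min_le_right _ _)
    linarith
  have HW := HW ε hε hε1 ρ hρ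
  -- KK
  have HS4 := fun x (hx : x ∈ S) => HS3 x hx ε hε (hε2 x hx) ρ hρ
  choose! KK HS4 using HS4
  refine ⟨KK, ρ.J, fun L1 L2 hL => ?_⟩
  -- the price
  have HS5 := fun s (hs : s < p) => HS4 (M s) (hMS s hs) (L1 s) (L2 s) (hL s).1 (hL s).2
  choose! cs hcs HS5 using HS5
  obtain ⟨c1, hc1, hc1'⟩ := exists_ge (range p) cs
  refine ⟨c1, hc1, fun g hg => ?_⟩
  have hc2 : ∀ s < p, cs s ≤ c1 := fun s hs => hc1' s (Finset.mem_range.2 hs)
  -- m
  obtain ⟨mw, HW⟩ := HW g hg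
  have HS6 := fun s (hs : s < p) => HS5 s hs g hg
  choose! ms HS6 using HS6
  obtain ⟨mm, hmm⟩ := exists_geN (range p) ms
  refine ⟨max mw mm, fun m hm => ?_⟩
  have hm2 : ∀ s < p, ms s ≤ m := fun s hs => ((hmm s (Finset.mem_range.2 hs)).trans (le_max_right _ _)).trans hm
  -- B
  obtain ⟨Bw, HW⟩ := HW m ((le_max_left _ _).trans hm)
  have HS7 := fun s (hs : s < p) => HS6 s hs m (hm2 s hs)
  choose! Bs HS7 using HS7
  obtain ⟨Bm, hBm⟩ := exists_geN (range p) Bs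
  refine ⟨max Bw Bm, fun B hB => ?_⟩
  have hB2 : ∀ s < p, Bs s ≤ B := fun s hs => ((hBm s (Finset.mem_range.2 hs)).trans (le_max_right _ _)).trans hB
  -- h
  obtain ⟨hw, HW⟩ := HW B ((le_max_left _ _).trans hB)
  have HS8 := fun s (hs : s < p) => HS7 s hs B (hB2 s hs)
  choose! hs' HS8 using HS8
  obtain ⟨hm', hhm⟩ := exists_geN (range p) hs'
  refine ⟨max hw hm', ?_⟩
  intro Ω _ Q l t L h q r0 Rn W hh hne τ υ R pn g' gU e κ₀ a1 r1 hR
  obtain ⟨i0, E, ha0, hi0, hwo⟩ := HW Ω Q l t L h q r0 Rn W ((le_max_left _ _).trans hh) hne τ υ R pn g' gU e κ₀ a1 r1 hR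
  refine ⟨i0, gdR R pn (eG ε ρ) i0, E, ha0, hi0,
    WordOk.mono1 hwo (mul_le_mul_of_nonneg_right hε3 (Nat.cast_nonneg h)), fun s hs => ?_⟩
  have hh2 : hs' s ≤ h := ((hhm s (Finset.mem_range.2 hs)).trans (le_max_right _ _)).trans hh
  obtain ⟨μ, o, psi, err, qq, u, T, cj, ch, δ, ho, X, hpsi⟩ :=
    HS8 s hs Ω Q l t L h q r0 Rn W hh2 hne τ υ R pn g' gU e κ₀ a1 r1 hR i0 E ha0 hi0 hwo (M (s + 1))
  exact ⟨μ, o, psi, err, qq, u, T, cj, ch, δ, ho, ScaleOk.mono1 X (hc2 s hs), hpsi⟩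

end Vale.Agent.P106.U.H315
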