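import Vale.Agent.P106.U.MIC.Stage
import Vale.Agent.P106.U.H336.Sw
import Vale.Agent.P106.U.H812.RecS
import Vale.Agent.P106.U.H652.Ev3
import Vale.Agent.P106.U.H518.NumNx

/-!
# P106 / U / H315 : row `RowL 0`, numbers and regimes over `St` (helper315)

* `KrS`, `LbS`, `WdS` : distance of the later step, its bound, width of the mixed zone (blocks).
* `NL` : the conditions on `m`, `B`;  `nl_ev` : they hold in the order `m`, `B`.
* `Pu s Lk z` : the level `z` is old and not exceptional;  `pu_mixed`, `pu_kap` : its indices are not mixed; in the kappa regime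
  there is room up to the later cap.
* `sw_le` : number of the exceptional levels.
-/

set_option autoImplicit false

namespace Vale.Agent.P106.U.H315

open Finset Filter Vale.Agent.P127 Vale.Agent.P127.Stk Vale.Agent.P127.U Vale.Agent.P106.W Vale.Agent.P106.K
open Vale.Agent.P127.U.CellD (q2 q2_pos)
open Vale.Agent.P106.U.Cell (Pth)
open Vale.Agent.P106.U.S3 (Run)
open Vale.Agent.P106.U.S5
open Vale.Agent.P106.U.MIC
open Vale.Agent.P106.U.H833
open Vale.Agent.P106.U.H101 (lc low low_ok)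
open Vale.Agent.P106.U.H823
open Vale.Agent.P106.U.H118 (Sdat CS full Zw)
open Vale.Agent.P106.U.H931 (nx lvi XN)
open Vale.Agent.P106.U.H336 (SwL Rg)
open Vale.Agent.P106.U.H652 (Ev3 ev_nat ev_con ev_div)

/-- distance of the later step in the time -/
noncomputable def KrS (ρ : Thr) (x : ℕ) : ℕ := (ρ.J + 1) * MuS x

/-- bound of this distance -/
noncomputable def LbS (ρ : Thr) (x L1 : ℕ) : ℕ := L1 + KrS ρ x

/-- width of the mixed zone -/
noncomputable def WdS (ρ : Thr) (x L1 : ℕ) : ℕ := LbS ρ x L1 + MuS x + x + 1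

/-- conditions on `m`, `B` -/
structure NL (ρ : Thr) (x L1 m B : ℕ) : Prop where
  m1 : 200 ≤ m
  B1 : 10 * μS x m ≤ B
  B2 : WdS ρ x L1 + 1 ≤ B

theorem nl_ev (ρ : Thr) (x L1 : ℕ) : Ev3 fun m B _ => NL ρ x L1 m B := by
  refine Ev3.of_B ?_
  filter_upwards [ev_nat 200] with m h1
  filter_upwards [ev_nat (10 * μS x m), ev_nat (WdS ρ x L1 + 1)] with B h2 h3
  exact ⟨h1, h2, h3⟩

theorem cN_ge : 800 ≤ cN := le_max_left _ _

theorem cφ_le : cφ ≤ cN := le_max_right _ _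

theorem MuS_eq (x m : ℕ) : m * MuS x = 8 * μS x m := by
  unfold MuS μS
  ring

theorem two_K {ρ : Thr} (hρ : ρ.Ok) : 2 * ρ.K ≤ 2 ^ 60 := by
  have := hρ.K2
  norm_num at this ⊢
  linarith

section st

variable {η : ℝ} {x : ℕ} {σ : Cst} {ε : ℝ} {ρ : Thr} {g : Gv} {m B h : ℕ} (s : St η x σ ε ρ g m B h)

theorem st_m : s.R.m = m := s.run.hm

theorem st_P : s.R.Path s.pn := s.run.ok.pth

theorem st_fN : s.f s.N ≤ s.R.n := H812.ix_le_n _ _ _

theorem st_f (j : ℕ) : s.f j ≤ s.R.n := H812.ix_le_n _ _ _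

/-- the margin of the scale is allowed -/
theorem st_mu {L1 : ℕ} (X : NL ρ x L1 m B) : μS x m ≤ s.R.C.μ := by
  rw [s.run.hμ]
  have h1 : B ≤ m * B := Nat.le_mul_of_pos_left _ (by have := X.m1; omega)
  have h2 := X.B1
  omega

/-- the exceptional levels -/
noncomputable def SwS (Lk : ℕ) : Finset ℕ := SwL s.R B s.Vs s.Xs Lk

/-- pure level -/
def Pu (Lk z : ℕ) : Prop := z ∉ SwS s Lk ∧ s.kd z = 0

theorem pu_vs {Lk z : ℕ} (h : Pu s Lk z) : z ∉ s.Vs := by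
  classical
  intro hz
  have h1 := h.2
  unfold St.kd at h1
  rw [if_pos hz] at h1
  split_ifs at h1 with h2
  · exact absurd h1 (by decide)
  · exact absurd h1 (by decide)

theorem pu_xs {Lk z : ℕ} (h : Pu s Lk z) (hz : z ≤ aN s.R s.R.n) : z ≠ 0 ∧ z ∉ s.Xs := by
  have h1 : ¬ H336.Evt s.R B s.Vs s.Xs Lk z := by
    refine H336.no_evt (z0 := z) (z1 := z) le_rfl hz (fun y h1 h2 => ?_) le_rfl (Nat.le_add_right _ _)
    have : y = z := by omega
    rw [this]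
    exact h.1
  unfold H336.Evt at h1
  push Not at h1
  exact ⟨h1.1, h1.2.1⟩

/-- an index of a pure level -/
theorem pu_idx {Lk k : ℕ} (hk : k ≤ s.R.n) (h : Pu s Lk (aN s.R k)) :
    1 ≤ k ∧ S3.lv s.R k ∉ s.Vs ∧ S3.lv s.R k ∉ s.Xs := by
  have hz : aN s.R k ≤ aN s.R s.R.n := H833.aN_mono (st_P s) hk (Nat.le_add_right _ _)
  obtain ⟨h1, h2⟩ := pu_xs s h hz
  refine ⟨?_, pu_vs s h, h2⟩
  rcases Nat.eq_zero_or_pos k with h3 | h3
  · exfalso
    apply h1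
    rw [h3]
    unfold aN
    rw [(st_P s).a0, Nat.zero_div]
  · exact h3

/-- **not mixed** -/
theorem pu_mixed {L1 Lk k : ℕ} (X : NL ρ x L1 m B) (hk : k ≤ s.R.n) (h : Pu s Lk (aN s.R k)) :
    ¬ mixed s.R s.R.b1 (WdS ρ x L1) k := by
  obtain ⟨h1, h2, h3⟩ := pu_idx s hk h
  exact (H518.reg_of (st_P s) s.f2 (Wd := WdS ρ x L1) (by have := X.B2; omega) k h1 hk h3).1

/-- **room up to the later cap** in the kappa regime -/
theorem pu_kap {L1 Lk k : ℕ} (hk : k ≤ s.R.n) (h : Pu s Lk (aN s.R k))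
    (hr : isKap s.R s.R.b1 (WdS ρ x L1) k) : s.R.C.rk k + s.bS ≤ s.R.C.rf k := by
  obtain ⟨h1, h2, h3⟩ := pu_idx s hk h
  rcases s.f2.regS k h1 hk h2 h3 with h4 | h4
  · omega
  · exfalso
    unfold isKap at hr
    have e1 := lev_k (st_P s) (i := k) (by omega)
    have e2 := lev_f (st_P s) (i := k) (by omega)
    rw [e1, e2] at h4
    have e3 : s.R.m * (kN s.R k + s.R.b1 + WdS ρ x L1 + 1) ≤ s.R.m * fN s.R k := Nat.mul_le_mul_left _ (by omega)
    have e4 : s.R.m * (kN s.R k + s.R.b1 + WdS ρ x L1 + 1) =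
        s.R.m * kN s.R k + s.R.m * s.R.b1 + s.R.m * (WdS ρ x L1 + 1) := by ring
    have e5 : 1 ≤ s.R.m * (WdS ρ x L1 + 1) := Nat.mul_pos (st_P s).m1 (by omega)
    omega

/-- **number of the exceptional levels** -/
theorem sw_le (hB : 1 ≤ B) (Lk : ℕ) : (m : ℝ) * (SwS s Lk).card ≤
    (Lk + 1) * (4 + (Lk + 1) * (2 * σ.K1 + 3)) * (h / B) + (Lk + 1) * (Lk + 2) * m := by
  have h1 := H336.SwL_le (st_P s) (K1 := σ.K1) (by rw [s.run.hq, s.run.hr0, s.run.hh]; exact s.run.qr) Lk hB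
    s.f2.runs s.f2.xs
  rw [s.run.hm, s.run.hh] at h1
  exact h1

end st

/-- the number of the exceptional levels is small -/
theorem ev_sw (σ : Cst) (Lk : ℕ) {κ : ℝ} (hκ : 0 < κ) : Ev3 fun m B h =>
    1 ≤ B ∧ (Lk + 1) * (4 + (Lk + 1) * (2 * σ.K1 + 3)) * ((h : ℝ) / B) + (Lk + 1) * (Lk + 2) * m ≤ κ * h := by
  have h1 : Ev3 fun m B h => ((Lk : ℝ) + 1) * (4 + (Lk + 1) * (2 * σ.K1 + 3)) / (B : ℝ) ≤ κ / 2 ∧ 1 ≤ B :=
    Ev3.of_B' fun m => (ev_div _ (by positivity)).and (ev_nat 1)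
  have h2 : Ev3 fun m B h => ((Lk : ℝ) + 1) * (Lk + 2) * m ≤ κ / 2 * h := Ev3.of_h fun m B => ev_con _ (by positivity)
  refine h1.mono2 h2 fun m B h P1 P2 => ⟨P1.2, ?_⟩
  have hB : (0 : ℝ) < B := by exact_mod_cast P1.2
  have hh : (0 : ℝ) ≤ h := Nat.cast_nonneg h
  have e1 := mul_le_mul_of_nonneg_right P1.1 hh
  have e2 : ((Lk : ℝ) + 1) * (4 + (Lk + 1) * (2 * σ.K1 + 3)) / (B : ℝ) * h =
      (Lk + 1) * (4 + (Lk + 1) * (2 * σ.K1 + 3)) * ((h : ℝ) / B) := by ring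
  rw [e2] at e1
  linarith

end Vale.Agent.P106.U.H315
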