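import Vale.Agent.P106.U.H315.RL0a
import Vale.Agent.P106.U.H457.SC0R
import Vale.Agent.P106.U.H931.SEn
import Vale.Agent.P106.U.H652.Kind

/-!
# P106 / U / H315 : row `RowL 0`, the sum of the errors (helper315)

* `I1s`, `I2s` : the two informations of the pure pairs over `St`;  **`SI0`** : their sums.
* `colS`, `errS0` : the collisions and the error of a step.
* `err_split` : the exceptional steps apart;  **`sum0`** : the sum of the errors is at most `η / 400 h`.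
-/

set_option autoImplicit false

namespace Vale.Agent.P106.U.H315

open Finset Filter Vale.Agent.P127 Vale.Agent.P127.Stk Vale.Agent.P127.U Vale.Agent.P106.W Vale.Agent.P106.K
open Vale.Agent.P127.U.CellD (q2 q2_pos)
open Vale.Agent.P106.U.Cell (Pth)
open Vale.Agent.P106.U.S3 (Run)
open Vale.Agent.P106.U.S5
open Vale.Agent.P106.U.MIC
open Vale.Agent.P106.U.H833
open Vale.Agent.P106.U.H101 (lc low low_ok)
open Vale.Agent.P106.U.H118 (Sdat CS full Zw)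
open Vale.Agent.P106.U.H931 (nx lvi XN e1S A0S A1S Kc NnS)
open Vale.Agent.P106.U.H652 (Ev3 ev_nat ev_con ev_div err1 ev_kind)

section defs

variable {η : ℝ} {x : ℕ} {σ : Cst} {ε : ℝ} {ρ : Thr} {g : Gv} {m B h : ℕ} (s : St η x σ ε ρ g m B h)

/-- first information of the pure pairs -/
noncomputable def I1s (L1 L2 Lk : ℕ) : ℕ → ℕ → ℝ :=
  I1O s.Rl.Q (s.Rl.C.re s.f s.hf) (s.Rl.m * s.R.b1) (2 * μS x m) s.N s.a (Pu s (Lk + LbS ρ x L1)) L1 L2 (KrS ρ x) Lk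

/-- second information of the pure pairs -/
noncomputable def I2s (L1 L2 Lk : ℕ) : ℕ → ℕ → ℝ :=
  I2O s.Rl.Q (s.Rl.C.re s.f s.hf) (s.Rl.m * s.R.b1) s.bS s.N s.a (Pu s (Lk + LbS ρ x L1)) L1 L2 (KrS ρ x) Lk

/-- bound of the collisions of the direction -/
noncomputable def wS0 (j : ℕ) : ℝ :=
  A0S ε ρ (MIC.gS x m) + A1S ρ * prE s.R.Q ((lc s.R.C (μS x m) s.o).Bad (KS ρ) (s.f (j + 1)) (bc s.R))

/-- the collisions -/
noncomputable def colS (j : ℕ) : ℝ := 2 * e1S ε ρ + 2 * wS0 s j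

/-- the error of a step -/
noncomputable def errS0 (L1 L2 Lk : ℕ) : ℕ → ℝ :=
  errO (cN * ((60 : ℕ) + 1)) cN s.Rl.m (2 ^ (cN * (MIC.gS x m + 60 + 1))) 3 L1 (fun j => 2 * e1S ε ρ + 2 * wS0 s j)
    (I1s s L1 L2 Lk) (I2s s L1 L2 Lk) (XN x s.N s.a s.r s.E)

end defs

/-- **[SI], kind 0** : the sums of the informations -/
def SI0 : Prop :=
  ∀ (η : ℝ) (x : ℕ) (σ : Cst) (ε : ℝ) (ρ : Thr), σ.Ok → 0 < ε → ρ.Ok → ∀ L1 L2 Lk : ℕ, 0 < L1 → L1 ≤ L2 →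
    KrS ρ x + 2 * (ρ.J * MuS x) ≤ Lk → ∃ (D C K' : ℝ) (X1 : ℕ → ℕ → ℝ), 0 ≤ D ∧ 0 ≤ C ∧ 0 ≤ K' ∧
    Ev3 fun m B h => ∀ (g : Gv) (s : St η x σ ε ρ g m B h),
      ∑ j ∈ range s.N, ∑ k ∈ Ioc j (j + L1), I1s s L1 L2 Lk j k ≤
        D * ((h : ℝ) / B) + K' * (m + (μS x m : ℕ) + 1) * q2 (μS x m / 8) * (C * ((h : ℝ) / m)) + X1 m B ∧
      ∑ j ∈ range s.N, ∑ k ∈ Ioc j (j + L1), I2s s L1 L2 Lk j k ≤
        D * ((h : ℝ) / B) + K' * (m + (μS x m : ℕ) + 1) * q2 (μS x m / 8) * (C * ((h : ℝ) / m)) + X1 m B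

theorem μS_eq (x m : ℕ) : 8 * (1000 * cN) * (xS x * m) = μS x m := by
  unfold μS cμ
  ring

theorem μS_div (x m : ℕ) : 8 * (1000 * cN) * (xS x * m) / 4 = μS x m / 4 := by rw [μS_eq]

/-- **the exponent of the prefactor** -/
theorem A_le (x m : ℕ) : (2 : ℝ) ^ (cN * (MIC.gS x m + 60 + 1)) ≤ 2 ^ (61 * cN) * 2 ^ (8 * cN * (xS x * m)) := by
  rw [← pow_add]
  refine pow_le_pow_right₀ (by norm_num) ?_
  unfold MIC.gS
  have : cN * (8 * xS x * m + 60 + 1) = 61 * cN + 8 * cN * (xS x * m) := by ring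
  omega

/-- **the sum of the errors of kind 0** : `κ` after `b`, `η`; `ε` after `κ` -/
theorem sum0 (hSI : SI0) {b : Bs} (hb : b.Ok) {η : ℝ} (hη : 0 < η) :
    ∃ ε0 : ℝ, 0 < ε0 ∧ ∀ (x : ℕ), 768 * (2 * b.K1 + 4) / η ≤ x → ∀ ε : ℝ, 0 < ε → ε ≤ ε0 → ∀ (σ : Cst), σ.toBs = b →
      σ.Ok → ∀ ρ : Thr, ρ.Ok → ∀ L1 L2 Lk : ℕ, 0 < L1 → L1 ≤ L2 → KrS ρ x + 2 * (ρ.J * MuS x) ≤ Lk →
      Ev3 fun m B h => ∀ (g : Gv) (s : St η x σ ε ρ g m B h), ∑ j ∈ range s.N, errS0 s L1 L2 Lk j ≤ η / 400 * h := by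
  have hK1 := hb.K10
  obtain ⟨κ, e0, hκ, he0, H⟩ := ev_kind (K := 2 * b.K1 + 4) (τ := η / 2500) (c' := cN) (xx := 3) (l := 1) (by positivity)
    (by positivity) (Nat.cast_nonneg _) (by norm_num) one_pos
  obtain ⟨ε1, hε1, Hn⟩ := H931.num_sc hK1 hκ
  refine ⟨min ε1 (min 1 (η / (174 * 20000))), by positivity, ?_⟩
  intro x hx ε hε hε0 σ hσb hσ ρ hρ L1 L2 Lk hL1 hL12 hLk
  have hεa : ε ≤ ε1 := hε0.trans (min_le_left _ _)
  have hεb : ε ≤ η / (174 * 20000) := (hε0.trans (min_le_right _ _)).trans (min_le_right _ _)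
  have hcN := cN_ge
  have hX1 : 1 ≤ xS x := by unfold xS; omega
  have hσK : σ.K1 = b.K1 := by rw [← hσb]
  obtain ⟨D, C, K', X1, hD, hC, hK', HS⟩ := hSI η x σ ε ρ hσ hε hρ L1 L2 Lk hL1 hL12 hLk
  have E1 := H (cN * ((60 : ℕ) + 1)) (by positivity) (e := 8 * cN) (c := 1000 * cN) (x := xS x) (by omega) hX1 L1
    (2 ^ (61 * cN)) C D K' X1 (by positivity) hC hD hK'
  have E2 := Hn ε hε hεa ρ hρ (KS ρ) (1000 * cN) (xS x) (by omega) hX1
  have E3 : Ev3 fun m B h => 3 * (m : ℝ) ≤ η / 20000 * h ∧ (m : ℝ) * (ρ.J + 1) ≤ h := Ev3.of_h fun m B => by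
    filter_upwards [ev_con (3 * (m : ℝ)) (κ := η / 20000) (by positivity), ev_con ((m : ℝ) * (ρ.J + 1)) one_pos] with h a b
    exact ⟨a, by linarith⟩
  refine ((E1.and E2).and (HS.and E3)).mono fun m B h P g s => ?_
  obtain ⟨⟨P1, P2⟩, P3, P4, P5⟩ := P
  obtain ⟨Q1, Q2⟩ := P3 g s
  have hm : s.R.m = m := s.run.hm
  have hnz : (m : ℝ) * s.N ≤ (2 * σ.K1 + 3) * h := H931.nz_le s.run
  have hh0 : (0 : ℝ) ≤ h := Nat.cast_nonneg h
  have hgm : m ≤ MIC.gS x m := by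
    unfold MIC.gS
    exact Nat.le_mul_of_pos_left m (by unfold xS; omega)
  have hc0 := hρ.c'0
  -- the collisions
  have hcol : (m : ℝ) * ∑ j ∈ range s.N, (2 * e1S ε ρ + 2 * wS0 s j) ≤ κ * h := by
    have h1 := P2 (MIC.gS x m) hgm
    rw [μS_div, ← hσK] at h1
    exact H931.sc0 s.run hσ P5 s.f2o (i0 := s.i0) (H931.e1S_nonneg hε.le hρ) (H931.A0S_nonneg hε.le hρ _)
      (H931.A1S_nonneg hρ) h1
  -- the exceptional steps
  have hXN : 3 * (m : ℝ) * (XN x s.N s.a s.r s.E).card ≤ (174 * ε + η / 512) * h + 3 * m :=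
    H931.xn_le s.run hσ hε.le hη (by rw [hσK]; exact hx) s.word
  -- the sum
  have key := P1 s.N (by rw [mul_one]; rw [hσK] at hnz; nlinarith) (2 ^ (cN * (MIC.gS x m + 60 + 1))) (by positivity)
    (A_le x m) (fun j => 2 * e1S ε ρ + 2 * wS0 s j) (I1s s L1 L2 Lk) (I2s s L1 L2 Lk) ∅
    (fun j k => I1O_nonneg _ _ _ _ _ _ _ _ _ _ _ _ _) (fun j k => I2O_nonneg _ _ _ _ _ _ _ _ _ _ _ _ _)
    (by rw [mul_one]; exact hcol) (by rw [μS_eq]; exact Q1) (by rw [μS_eq]; exact Q2)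
    (by rw [Finset.card_empty]; simp only [Nat.cast_zero, mul_zero]; positivity)
  rw [mul_one] at key
  have e1 : ∑ j ∈ range s.N, errS0 s L1 L2 Lk j =
      ∑ j ∈ range s.N, err1 (cN * ((60 : ℕ) + 1)) cN m (2 ^ (cN * (MIC.gS x m + 60 + 1))) 3 L1
        (fun j => 2 * e1S ε ρ + 2 * wS0 s j) (I1s s L1 L2 Lk) (I2s s L1 L2 Lk) ∅ j +
        3 * m * ∑ j ∈ range s.N, (if j ∈ XN x s.N s.a s.r s.E then (1 : ℝ) else 0) := by
    rw [Finset.mul_sum, ← Finset.sum_add_distrib]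
    refine Finset.sum_congr rfl fun j _ => ?_
    unfold errS0
    rw [show (s.Rl.m : ℝ) = m by exact_mod_cast hm]
    exact H931.errO_split _ _ _ _ _ _ _ _ _ _ j
  have e2 := H931.sum_ind_le s.N (XN x s.N s.a s.r s.E)
  have e3 := mul_le_mul_of_nonneg_left e2 (show (0 : ℝ) ≤ 3 * m by positivity)
  rw [e1]
  have e4 : 174 * ε * h ≤ η / 20000 * h := by
    refine mul_le_mul_of_nonneg_right ?_ hh0
    have := mul_le_mul_of_nonneg_left hεb (show (0 : ℝ) ≤ 174 by norm_num)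
    refine this.trans (le_of_eq ?_)
    field_simp
  have e5 : 0 ≤ η * h := by positivity
  linarith

end Vale.Agent.P106.U.H315
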