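import Vale.Agent.P106.U.H315.RL0b
import Vale.Agent.P106.U.H833.LoRec
import Vale.Agent.P106.U.H513.SIs

/-!
# P106 / U / H315 : row `RowL 0` (helper315)

* `numN_s` : 833's numbers over `St`.
* `win0` : the light windows of kind `0`.
* `rowL0_of` : `SI0 → MIC.RowL 0`;  `si0` : helper513's sums;  **`rowL0 : MIC.RowL 0`**.
-/

set_option autoImplicit false

namespace Vale.Agent.P106.U.H315

open Finset Filter Vale.Agent.P127 Vale.Agent.P127.Stk Vale.Agent.P127.U Vale.Agent.P106.W Vale.Agent.P106.K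
open Vale.Agent.P127.U.CellD (q2 q2_pos)
open Vale.Agent.P106.U.Cell (Pth)
open Vale.Agent.P106.U.S3 (Run)
open Vale.Agent.P106.U.S5
open Vale.Agent.P106.U.MIC
open Vale.Agent.P106.U.H833
open Vale.Agent.P106.U.H101 (lc low low_ok)
open Vale.Agent.P106.U.H118 (Sdat CS full Zw)
open Vale.Agent.P106.U.H931 (nx lvi XN e1S A0S A1S Kc NnS)
open Vale.Agent.P106.U.H652 (Ev3 ev_nat ev_con ev_div err1 ev_kind)

section st

variable {η : ℝ} {x : ℕ} {σ : Cst} {ε : ℝ} {ρ : Thr} {g : Gv} {m B h : ℕ} (s : St η x σ ε ρ g m B h)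

/-- **833's numbers** -/
theorem numN_s (hρ : ρ.Ok) {L1 : ℕ} (X : NL ρ x L1 m B) :
    NumN s.Rl s.pn ρ.K cN s.R.b1 x s.pn.s 60 (MIC.gS x m) (2 * μS x m) s.bS (MuS x) (WdS ρ x L1) (KrS ρ x)
      (LbS ρ x L1) := by
  have hm : s.R.m = m := s.run.hm
  have x1 := X.m1
  have x2 := X.B1
  have x3 := X.B2
  have hlow := s.run.cap.low
  have htop := s.run.cap.top
  have hs := s.run.hs
  have hJ := s.run.hJ
  have hrm := s.run.rm
  have hr0 := s.run.hr0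
  have hMu := MuS_eq x m
  have hS := s.f2.loS
  have e1 : s.R.m * (s.R.b1 + B) = m * s.R.b1 + m * B := by rw [hm, Nat.mul_add]
  have e2 : B ≤ m * B := Nat.le_mul_of_pos_left _ (by omega)
  have hW : WdS ρ x L1 = LbS ρ x L1 + MuS x + x + 1 := rfl
  have hcN := cN_ge
  constructor
  · exact hcN
  · exact hρ.K1
  · exact two_K hρ
  · show s.R.m * s.R.b1 ≤ s.pn.B₁
    have h1 : s.R.m * s.R.b1 ≤ s.R.m * (s.R.b1 + B) := Nat.mul_le_mul_left _ (Nat.le_add_right _ _)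
    omega
  · show (x + s.pn.s + 1) * s.R.m + 2 * 60 + 1 ≤ MIC.gS x m
    rw [hm]
    unfold MIC.gS xS
    have h1 : (x + s.pn.s + 1) * m ≤ (x + 11) * m := Nat.mul_le_mul_right _ (by omega)
    have h2 : (x + 11) * m + m ≤ 8 * (x + 12) * m := by
      have : (x + 11) * m + m = (x + 12) * m := by ring
      rw [this]
      exact Nat.mul_le_mul_right _ (by omega)
    omega
  · show cN * (MIC.gS x m + 60 + 1) ≤ μS x m
    unfold MIC.gS μS cμ
    have h1 : 8 * xS x * m + 60 + 1 ≤ 9 * (xS x * m) := by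
      have h2 : m ≤ xS x * m := Nat.le_mul_of_pos_left _ (by unfold xS; omega)
      have h3 : 8 * xS x * m = 8 * (xS x * m) := by ring
      omega
    calc cN * (8 * xS x * m + 60 + 1) ≤ cN * (9 * (xS x * m)) := Nat.mul_le_mul_left _ h1
      _ = 9 * cN * (xS x * m) := by ring
      _ ≤ 8000 * cN * (xS x * m) := Nat.mul_le_mul_right _ (Nat.mul_le_mul_right _ (by norm_num))
      _ = _ := by ring
  · show μS x m ≤ 2 * μS x m
    omega
  · show s.R.m * s.R.b1 + 8 * μS x m ≤ s.bS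
    rw [hm]
    omega
  · show s.R.m * s.R.b1 + 2 * μS x m ≤ s.bS
    rw [hm]
    omega
  · show 8 * μS x m ≤ s.R.m * MuS x
    rw [hm]
    omega
  · omega
  · show 8 * μS x m ≤ s.R.r0
    omega
  · omega
  · omega
  · omega
  · omega
  · rw [hJ]
    unfold KrS
    exact le_of_eq (by ring)

theorem wS0_nonneg (hε : 0 ≤ ε) (hρ : ρ.Ok) (j : ℕ) : 0 ≤ wS0 s j := by
  unfold wS0
  have h1 := H931.A0S_nonneg hε hρ (MIC.gS x m)
  have h2 := H931.A1S_nonneg hρ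
  have h3 := prE_nonneg s.R.Q ((lc s.R.C (μS x m) s.o).Bad (KS ρ) (s.f (j + 1)) (bc s.R))
  positivity

/-- **the light windows of kind 0** -/
theorem win0 (hσ : σ.Ok) (hε : 0 < ε) (hρ : ρ.Ok) {L1 L2 Lk : ℕ} (X : NL ρ x L1 m B) (hLk : KrS ρ x ≤ Lk)
    (hB : (3 * ρ.K) ^ 2 * (6 * 100 ^ 2 * ρ.K) ≤ 2 ^ B) {c1 cj : ℝ} (hc1 : cCh ρ.K + cNst ρ.K ≤ c1)
    (hcj : cJu (μS x m) + cNst ρ.K ≤ cj) : s.Win 0 L1 L2 Lk c1 cj (errS0 s L1 L2 Lk) (SwS s (Lk + LbS ρ x L1)) := by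
  have hm : s.R.m = m := s.run.hm
  have hμ := st_mu s X
  have Hn := numN_s s hρ X
  have x1 := X.m1
  have hKr : 0 < KrS ρ x := by
    unfold KrS MuS
    have := cN_ge
    unfold cμ xS
    positivity
  have h7 : 7 ≤ μS x m := by
    have h1 := cN_ge
    unfold μS cμ
    have h2 : 1 ≤ xS x * m := Nat.mul_pos (by unfold xS; omega) (by omega)
    have h3 : 8000 * cN * xS x * m = 8000 * cN * (xS x * m) := by ring
    rw [h3]
    nlinarith
  have hpu : ∀ t ≤ s.N, Pu s (Lk + LbS ρ x L1) (s.a t) → ¬ mixed s.R s.R.b1 (WdS ρ x L1) (s.f t) :=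
    fun t _ h => pu_mixed s X (st_f s t) h
  have hbW : ∀ t ≤ s.N, Pu s (Lk + LbS ρ x L1) (s.a t) → isKap s.R s.R.b1 (WdS ρ x L1) (s.f t) →
      s.R.C.rk (s.f t) + s.bS ≤ s.R.C.rf (s.f t) := fun t _ h hr => pu_kap s (st_f s t) h hr
  have Co := H457.colN_run s.run hσ hρ s.nex.lb hB s.o hμ s.hf (N := s.N) (st_fN s) Hn (eG := eG ε ρ) (b0 := bc s.R)
    (γ := s.gd) (fun j hj => (H101.good_low s.run.ok hμ s.o (bc s.R) (bc s.R) ((st_f s j).trans (Nat.le_add_right _ _))).2 hj)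
    s.word.sd s.word.hE (L1 := L1) (L2 := L2) (Lk := Lk) hKr hLk (Pu s (Lk + LbS ρ x L1)) hpu (Nn := NnS ρ) (H931.Nn_le ρ)
    (K'' := KS ρ) le_rfl le_rfl h7 (by omega) (H931.K_le_Kc ρ) (H931.e1S_1 hε.le hρ) (H931.e1S_2 hε.le hρ)
  have hw0 : ∀ j, 0 ≤ wS0 s j := wS0_nonneg s hε.le hρ
  have key := win_old_all (R := s.Rl) (low_ok s.o hμ s.run.ok) s.hf (st_fN s) cφ_spec cφ_le Hn (b0 := bc s.R)
    (fun j hj => (H101.good_low s.run.ok hμ s.o (bc s.R) (bc s.R) ((st_f s j).trans (Nat.le_add_right _ _))).2 hj)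
    s.word.sd s.word.hE (L1 := L1) (L2 := L2) (KK := Lk + 1) (Lk := Lk) hKr le_rfl hLk le_rfl (Pu s (Lk + LbS ρ x L1)) hpu hbW
    (e1 := e1S ε ρ) (w := wS0 s) Co (H931.e1S_nonneg hε.le hρ) hw0 hc1 hcj (xo := fun _ => 0) (fun _ => le_rfl)
  intro i k i1 h1 h2 h3 h4 h5 h6 h7' h8
  have h9 := key i k i1 h1 h2 h3 h4 h5 h6 h7' h8
  simp only [add_zero] at h9
  exact h9

end st

/-- constant of the junctions -/
theorem cj_le {x m : ℕ} {K : ℝ} (h : Real.log 18865 + cNst K ≤ m * Real.log 2) :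
    cJu (μS x m) + cNst K ≤ m * Real.log 2 * (15 * cμ * (x + 12) + 1) := by
  unfold cJu
  have e : ((μS x m : ℕ) : ℝ) = cμ * (x + 12) * m := by
    unfold μS xS
    push_cast
    ring
  rw [e]
  have e2 : (m : ℝ) * Real.log 2 * (15 * cμ * (x + 12) + 1) =
      15 * (cμ * (x + 12) * m) * Real.log 2 + m * Real.log 2 := by ring
  rw [e2]
  linarith

/-- **`RowL 0`** from the sums of the informations -/
theorem rowL0_of (hSI : SI0) : MIC.RowL 0 := by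
  refine ⟨fun x => 15 * cμ * (x + 12) + 1, fun x => by positivity, ?_⟩
  intro b hb η hη x δh e3 hx hδh he3
  obtain ⟨ε0, hε0, S⟩ := sum0 hSI hb hη
  refine ⟨1, one_pos, fun θ hθ _ => ⟨1, one_pos, fun δ1 hδ1 _ σ hσe hσ => ⟨ε0, hε0, fun ε hε hε1 ρ hρ => ?_⟩⟩⟩
  refine ⟨KrS ρ x + 2 * (ρ.J * MuS x), fun Lk hLk L1 L2 hL1 hL12 κ hκ => ?_⟩
  refine ⟨cCh ρ.K + cNst ρ.K, add_nonneg (cCh_nonneg _) (cNst_nonneg _), ?_⟩
  have S1 := S x hx ε hε hε1 σ (by rw [hσe]) hσ ρ hρ L1 L2 Lk hL1 hL12 hLk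
  have S2 := nl_ev ρ x L1
  have S3 := ev_sw σ (Lk + LbS ρ x L1) hκ
  have hl2 : 0 < Real.log 2 := Real.log_pos (by norm_num)
  have S4 : Ev3 fun m B h => Real.log 18865 + cNst ρ.K ≤ m * Real.log 2 ∧
      (3 * ρ.K) ^ 2 * (6 * 100 ^ 2 * ρ.K) ≤ 2 ^ B := by
    refine Ev3.of_B ?_
    filter_upwards [ev_con (Real.log 18865 + cNst ρ.K) hl2] with m h1
    filter_upwards [ev_con ((3 * ρ.K) ^ 2 * (6 * 100 ^ 2 * ρ.K)) one_pos] with B h2
    refine ⟨by linarith, ?_⟩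
    have : (B : ℝ) ≤ 2 ^ B := by exact_mod_cast B.lt_two_pow_self.le
    linarith
  refine Suf.of_ev3 fun g _ => ?_
  obtain ⟨m0, H⟩ := ((S1.and S2).and (S3.and S4)).out
  refine ⟨m0, fun m hm => ?_⟩
  obtain ⟨B0, H⟩ := H m hm
  refine ⟨B0, fun B hB => ?_⟩
  obtain ⟨h0, H⟩ := H B hB
  refine ⟨h0, fun h hh s => ?_⟩
  obtain ⟨⟨P1, P2⟩, P3, P4, P5⟩ := H h hh
  have hm' : s.R.m = m := s.run.hm
  have hcj0 : 0 ≤ cJu (μS x m) + cNst ρ.K := by
    unfold cJu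
    have h1 := cNst_nonneg ρ.K
    have h2 : 0 ≤ Real.log 18865 := Real.log_nonneg (by norm_num)
    positivity
  refine ⟨errS0 s L1 L2 Lk, SwS s (Lk + LbS ρ x L1), cJu (μS x m) + cNst ρ.K, hcj0, ?_, ?_, P1 g s, ?_, ?_⟩
  · unfold St.mm
    rw [hm']
    exact cj_le P4
  · intro j
    unfold errS0
    refine errO_nonneg (by positivity) (Nat.cast_nonneg _) (Nat.cast_nonneg _) (by positivity) (by norm_num) (fun j => ?_) j
    have h1 := H931.e1S_nonneg hε.le hρ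
    have h2 := wS0_nonneg s hε.le hρ j
    positivity
  · refine (sw_le s P3.1 (Lk + LbS ρ x L1)).trans ?_
    have := P3.2
    push_cast at this ⊢
    exact this
  · exact win0 s hσ hε hρ P2 (by omega) P5 le_rfl le_rfl

/-- **the sums of the informations** (helper513) -/
theorem si0 : SI0 := by
  intro η x σ ε ρ hσ _ hρ L1 L2 Lk _ _ hLk
  have hK1 := hσ.bs.K10
  refine ⟨H513.siD L1 (LbS ρ x L1), H513.siC ρ.K σ.K1 L1 L2 (LbS ρ x L1), KS ρ, fun m _ => H513.siX L1 L2 (2 * μS x m),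
    H513.siD_nonneg _ _, H513.siC_nonneg (by linarith) _ _ _, by have := hρ.K1; unfold KS; positivity, ?_⟩
  have E : Ev3 fun m B h => (m : ℝ) * (ρ.J + 1) ≤ h := Ev3.of_h fun m B => by
    filter_upwards [ev_con ((m : ℝ) * (ρ.J + 1)) one_pos] with h a
    linarith
  refine (nl_ev ρ x L1).mono2 E fun m B h X hJ g s => ?_
  have hWd : WdS ρ x L1 = LbS ρ x L1 + MuS x + x + 1 := rfl
  have x3 := X.B2
  exact H513.si_st' hρ s hJ (by have := X.m1; omega) (numN_s s hρ X) (st_mu s X) hLk le_rfl (by omega)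
    (Nat.le_add_left _ _) (by omega)

/-- **row `RowL 0`** -/
theorem rowL0 : MIC.RowL 0 := rowL0_of si0

end Vale.Agent.P106.U.H315
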