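import Vale.Agent.P106.U.H712.SWinT
import Vale.Agent.P106.U.H715.PlOld

/-! # P106 / U / H315 : row [S] (composition: 712 `rowS_of`, `sWin_of`; 715 `plO`) (helper315) -/

set_option autoImplicit false

namespace Vale.Agent.P106.U.H315

open Vale.Agent.P106.U.H61.PS

/-- the bound at a place, all data -/
theorem pls : H712.SWinT.Pls := fun _ _ _ _ _ _ _ _ _ _ _ _ n oo _ hb _ hμ o _ hd =>
  H715.PlOld.plO _ n.nu oo hμ hd o hb

/-- **row [S]** -/
theorem rowS : RowS H661.SD.FS := H712.SLast.rowS_of (H712.SWinT.sWin_of pls)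

end Vale.Agent.P106.U.H315
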