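import Vale.Agent.P106.U.H565.RunD
import Vale.Agent.P106.U.H480.SelG

/-!
# P106 / U / H315 : word 1 of the concrete run (row [W1C] of helper565's list; helper315)

* `w1_card`, `w1_log` : number of values of word 1.
* `Cn.of`, `Cn.wd`, `Cn.pair`, `Cn.step` : laws with a deterministic word, for conditional laws (word alone; word and a further
  variable; a second condition).
* `w1_cn`, `w1_cn2` : the same for `C0.rule`.
* `SelG.cn1`, `SelG.cn2`, `SelG.mk1` : the laws `Q1`, `Q2` of the joint selection with closures and the data `C1`;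
  `x1_log`, `x2_log`, `x_log` : their weights.
-/

set_option autoImplicit false

namespace Vale.Agent.P106.U.H315

open Finset Vale.Agent.P127 Vale.Agent.P127.Stk Vale.Agent.P127.U Vale.Agent.P106.W
open Vale.Agent.P106.K (Ry)
open Vale.Agent.P127.U.JSB
open Vale.Agent.P106.U Vale.Agent.P106.U.H449 Vale.Agent.P106.U.H565

/-! ### Conditional laws with a deterministic word -/

section gen

variable {Ω : Type} [Fintype Ω] {K : ℕ} {δ γ ζ₁ ζ₂ : Type} {e : Rl Ω K δ γ ζ₁ ζ₂} {P : Law Ω} {n : ℕ}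

/-- a condition which determines the word -/
theorem cn_of {V : Type*} (Z : Ω → V) (z : V) (E : List (Lt K)) (hz : 0 < P.pr Z z)
    (h : ∀ ω, 0 < P.w ω → Z ω = z → e.wd P n ω = E) : Cn e P (P.cond Z z) n E (P.pr Z z) where
  hq := hz
  dom := H565.cond_dom P Z z hz
  hE := fun ω hω => h ω (cond_supp P Z z hω) (cond_supp' P Z z hz hω)

/-- the word alone -/
theorem cn_wd (E : List (Lt K)) (hz : 0 < P.pr (e.wd P n) E) :
    Cn e P (P.cond (e.wd P n) E) n E (P.pr (e.wd P n) E) :=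
  cn_of _ _ _ hz fun _ _ h => h

/-- the word alone, at a point of the support -/
theorem cn_wd' {ω : Ω} (hω : 0 < P.w ω) :
    Cn e P (P.cond (e.wd P n) (e.wd P n ω)) n (e.wd P n ω) (P.pr (e.wd P n) (e.wd P n ω)) :=
  cn_wd _ (P.pr_pos _ hω)

/-- the word and a further variable -/
theorem cn_pair {V : Type*} (X : Ω → V) (E : List (Lt K)) (x : V)
    (hz : 0 < P.pr (fun ω => (e.wd P n ω, X ω)) (E, x)) :
    Cn e P (P.cond (fun ω => (e.wd P n ω, X ω)) (E, x)) n E (P.pr (fun ω => (e.wd P n ω, X ω)) (E, x)) :=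
  cn_of _ _ _ hz fun _ _ h => (Prod.mk.inj h).1

/-- a second condition -/
theorem cn_step {Q : Law Ω} {E : List (Lt K)} {q : ℝ} (h : Cn e P Q n E q) {V : Type*} (Z : Ω → V) (z : V)
    (hz : 0 < Q.pr Z z) : Cn e P (Q.cond Z z) n E (q * Q.pr Z z) where
  hq := mul_pos h.hq hz
  dom := fun ω => by
    have h1 := H565.cond_dom Q Z z hz ω
    have h2 := mul_le_mul_of_nonneg_left h1 h.hq.le
    rw [← mul_assoc] at h2
    exact h2.trans (h.dom ω)
  hE := fun ω hω => h.hE ω (cond_supp Q Z z hω)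

/-- an arbitrary dominated law -/
theorem cn_dom {Q Q' : Law Ω} {E : List (Lt K)} {q x : ℝ} (h : Cn e P Q n E q) (hx : 0 < x)
    (hd : ∀ ω, x * Q'.w ω ≤ Q.w ω) : Cn e P Q' n E (q * x) where
  hq := mul_pos h.hq hx
  dom := fun ω => by
    have h2 := mul_le_mul_of_nonneg_left (hd ω) h.hq.le
    rw [← mul_assoc] at h2
    exact h2.trans (h.dom ω)
  hE := fun ω hω => h.hE ω ((mul_pos hx hω).trans_le (hd ω))

end gen

/-! ### Word 1 of the run -/

section run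

variable {Ω : Type} [Fintype Ω] (c : C0 Ω)

/-- bound of the number of values of word 1 -/
noncomputable def M1 (I : H523.Nums.Inp) : ℕ := 75 ^ I.pm.n

theorem M1_pos (I : H523.Nums.Inp) : 0 < M1 I := by
  unfold M1
  positivity

/-- **number of values of word 1** -/
theorem w1_card : (img c.w1).card ≤ M1 c.I := by
  have h := Rl.wd_card (e := c.rule) (P := c.P) c.I.pm.n
  refine h.trans (le_of_eq ?_)
  unfold M1
  norm_num

/-- constant of the price of word 1 -/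
noncomputable def cW1 (K1 : ℝ) : ℝ := (2 + 2 * K1) * Real.log 75

theorem M1_log {K1 : ℝ} {N0 : ℕ} (I : H523.Nums.Inp) (g : I.Good K1 N0) :
    Real.log (M1 I) ≤ cW1 K1 * (I.h / I.m) := by
  have h75 : 0 ≤ Real.log 75 := Real.log_nonneg (by norm_num)
  have h1 : Real.log (M1 I) = I.pm.n * Real.log 75 := by
    unfold M1
    rw [Nat.cast_pow, Real.log_pow]
    norm_num
  rw [h1]
  calc (I.pm.n : ℝ) * Real.log 75 ≤ ((2 + 2 * K1) * (I.h / I.m)) * Real.log 75 :=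
        mul_le_mul_of_nonneg_right g.n1 h75
    _ = cW1 K1 * (I.h / I.m) := by unfold cW1; ring

theorem w1_cn (E : List (Lt 2)) (hz : 0 < c.P.pr c.w1 E) :
    Cn c.rule c.P (c.P.cond c.w1 E) c.I.pm.n E (c.P.pr c.w1 E) := cn_wd E hz

theorem w1_cn' {ω : Ω} (hω : 0 < c.P.w ω) :
    Cn c.rule c.P (c.P.cond c.w1 (c.w1 ω)) c.I.pm.n (c.w1 ω) (c.P.pr c.w1 (c.w1 ω)) := cn_wd' hω

/-- word 1 and a further variable (the pattern) -/
theorem w1_cn2 {V : Type*} (X : Ω → V) (E : List (Lt 2)) (x : V) (hz : 0 < c.P.pr (fun ω => (c.w1 ω, X ω)) (E, x)) :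
    Cn c.rule c.P (c.P.cond (fun ω => (c.w1 ω, X ω)) (E, x)) c.I.pm.n E (c.P.pr (fun ω => (c.w1 ω, X ω)) (E, x)) :=
  cn_pair X E x hz

/-- the data after word 1, for a value of word 1 and of a further variable -/
noncomputable def mkC1 {K1 : ℝ} {N0 : ℕ} (g : c.I.Good K1 N0) {V : Type*} (X : Ω → V) (E : List (Lt 2)) (x : V)
    (hz : 0 < c.P.pr (fun ω => (c.w1 ω, X ω)) (E, x)) : C1 Ω where
  toC0 := c
  K1 := K1
  N0 := N0
  good := g
  Q1 := c.P.cond (fun ω => (c.w1 ω, X ω)) (E, x)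
  E1 := E
  x1 := c.P.pr (fun ω => (c.w1 ω, X ω)) (E, x)
  cn := w1_cn2 c X E x hz

end run

/-! ### The laws of the joint selection -/

section sel

variable {Ω : Type} [Fintype Ω] {c : C0 Ω} {S2 T U V ι : Type} {N1 : ℕ} {B : ℕ} {a μ ε₁ : ℝ}
    {Y : ℕ → Ω → T} {F : ℕ → Ω → U} {Gb : Law Ω → ℕ → Ω → V} {Zw : Law Ω → ℕ → ℕ → Ω → S2}
    {A : Law Ω → ℕ → ℕ → S2 → Prop} {pg Hm : ℝ} {s Tc : ℕ} {J : Finset ι}
    {ψ : ι → Law Ω → ℕ → ℕ → S2 → ℝ} {Φ : ι → ℝ} {b0 kk : ℕ} {e1 : List (Lt 2)} {E : Finset ℕ} {e2 : S2} {Q1 Q2 : Law Ω}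

/-- the law `Q1` of the joint selection -/
theorem sel_cn1 (h : SelG c.P c.w1 N1 B a μ ε₁ Y F Gb Zw A pg Hm s Tc J ψ Φ b0 kk e1 E e2 Q1 Q2) :
    Cn c.rule c.P Q1 c.I.pm.n e1 (c.P.pr (fun ω => (c.w1 ω, ypat c.P B Y F a ω)) (e1, E)) where
  hq := h.pos1
  dom := h.dom1
  hE := fun ω hω => (h.sup1 ω hω).2.1

/-- the law `Q2` of the joint selection -/
theorem sel_cn2 (h : SelG c.P c.w1 N1 B a μ ε₁ Y F Gb Zw A pg Hm s Tc J ψ Φ b0 kk e1 E e2 Q1 Q2) :
    Cn c.rule c.P Q2 c.I.pm.n e1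
      (c.P.pr (fun ω => (c.w1 ω, ypat c.P B Y F a ω)) (e1, E) * Q1.pr (Zw Q1 b0 kk) e2) :=
  cn_dom (sel_cn1 h) h.pos2 h.dom2

/-- the data after word 1 -/
noncomputable def selC1 {K1 : ℝ} {N0 : ℕ} (g : c.I.Good K1 N0)
    (h : SelG c.P c.w1 N1 B a μ ε₁ Y F Gb Zw A pg Hm s Tc J ψ Φ b0 kk e1 E e2 Q1 Q2) : C1 Ω where
  toC0 := c
  K1 := K1
  N0 := N0
  good := g
  Q1 := Q1
  E1 := e1
  x1 := c.P.pr (fun ω => (c.w1 ω, ypat c.P B Y F a ω)) (e1, E)
  cn := sel_cn1 h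

/-- the weight of `Q1` -/
theorem x1_log (h : SelG c.P c.w1 N1 B a μ ε₁ Y F Gb Zw A pg Hm s Tc J ψ Φ b0 kk e1 E e2 Q1 Q2) (hμ : 0 < μ)
    (hN1 : 0 < N1) :
    -Real.log (c.P.pr (fun ω => (c.w1 ω, ypat c.P B Y F a ω)) (e1, E)) ≤
      Real.log (6 / μ) + Real.log N1 + B * Real.log 2 := by
  have hN : (0 : ℝ) < N1 := by exact_mod_cast hN1
  have h2 : (0 : ℝ) < 2 ^ B := by positivity
  have h0 : 0 < μ / (6 * ((N1 : ℝ) * 2 ^ B)) := by positivity
  have h1 := Real.log_le_log h0 h.p1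
  have h3 : Real.log (μ / (6 * ((N1 : ℝ) * 2 ^ B))) = -(Real.log (6 / μ) + Real.log N1 + B * Real.log 2) := by
    rw [Real.log_div hμ.ne' (by positivity), Real.log_mul (by norm_num) (by positivity),
      Real.log_mul hN.ne' h2.ne', Real.log_div (by norm_num) hμ.ne', Real.log_pow]
    ring
  rw [h3] at h1
  linarith

/-- the weight of `Q1` with the bound of word 1 -/
theorem x1_log' {K1 : ℝ} {N0 : ℕ} (g : c.I.Good K1 N0)
    (h : SelG c.P c.w1 (M1 c.I) B a μ ε₁ Y F Gb Zw A pg Hm s Tc J ψ Φ b0 kk e1 E e2 Q1 Q2) (hμ : 0 < μ) :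
    -Real.log (c.P.pr (fun ω => (c.w1 ω, ypat c.P B Y F a ω)) (e1, E)) ≤
      Real.log (6 / μ) + cW1 K1 * (c.I.h / c.I.m) + B * Real.log 2 := by
  have h1 := x1_log h hμ (M1_pos _)
  have h2 := M1_log c.I g
  linarith

/-- the weight of `Q2` in `P` -/
theorem x_log {K1 : ℝ} {N0 : ℕ} (g : c.I.Good K1 N0)
    (h : SelG c.P c.w1 (M1 c.I) B a μ ε₁ Y F Gb Zw A pg Hm s Tc J ψ Φ b0 kk e1 E e2 Q1 Q2) (hμ : 0 < μ) :
    -Real.log (c.P.pr (fun ω => (c.w1 ω, ypat c.P B Y F a ω)) (e1, E) * Q1.pr (Zw Q1 b0 kk) e2) ≤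
      Real.log (6 / μ) + cW1 K1 * (c.I.h / c.I.m) + B * Real.log 2 +
        (J.card + 4) / pg * (16 * (J.card + 2) / μ * Hm + 1) := by
  rw [Real.log_mul h.pos1.ne' h.pos2.ne']
  have h1 := x1_log' g h hμ
  have h2 := h.p2
  linarith

end sel

end Vale.Agent.P106.U.H315
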